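import Mathlib

/-! Greedy hitting sets, and small sets meeting all progressions with unit step (P057). -/

namespace Vale.Agent.P057.H915

open Finset

variable {α ι : Type} [DecidableEq α]

/-- one greedy step -/
theorem step (G : Finset α) (F : Finset ι) (S : ι → Finset α) (L : ℕ)
    (hS : ∀ i ∈ F, S i ⊆ G ∧ L ≤ (S i).card) (hG : G.Nonempty) :
    ∃ x ∈ G, (L : ℝ) / G.card * F.card ≤ ((F.filter fun i => x ∈ S i).card : ℝ) := by
  classical
  by_contra hcon
  push Not at hcon
  have h1 : ∑ x ∈ G, ((F.filter fun i => x ∈ S i).card : ℝ) < ∑ x ∈ G, (L : ℝ) / G.card * F.card :=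
    Finset.sum_lt_sum_of_nonempty hG fun x hx => hcon x hx
  have h2 : ∑ x ∈ G, ((F.filter fun i => x ∈ S i).card : ℝ) = ∑ i ∈ F, ((S i).card : ℝ) := by
    have : ∑ x ∈ G, (F.filter fun i => x ∈ S i).card = ∑ i ∈ F, (S i).card := by
      simp only [Finset.card_filter]
      rw [Finset.sum_comm]
      refine Finset.sum_congr rfl fun i hi => ?_
      rw [← Finset.card_filter]
      congr 1
      ext x
      simp only [Finset.mem_filter]
      exact ⟨fun h => h.2, fun h => ⟨(hS i hi).1 h, h⟩⟩
    exact_mod_cast this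
  have h3 : (F.card : ℝ) * L ≤ ∑ i ∈ F, ((S i).card : ℝ) := by
    have := Finset.card_nsmul_le_sum F (fun i => ((S i).card : ℝ)) (L : ℝ)
      (fun i hi => by exact_mod_cast (hS i hi).2)
    simpa [nsmul_eq_mul] using this
  have h4 : ∑ x ∈ G, (L : ℝ) / G.card * F.card = F.card * L := by
    rw [Finset.sum_const, nsmul_eq_mul]
    have : (G.card : ℝ) ≠ 0 := by
      have := hG.card_pos
      positivity
    field_simp
  linarith

/-- greedy hitting sets -/
theorem greedy (G : Finset α) (F : Finset ι) (S : ι → Finset α) (L : ℕ)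
    (hS : ∀ i ∈ F, S i ⊆ G ∧ L ≤ (S i).card) (hG : G.Nonempty) (hL : L ≤ G.card) (t : ℕ) :
    ∃ R ⊆ G, R.card ≤ t ∧
      ((F.filter fun i => Disjoint (S i) R).card : ℝ) ≤ F.card * (1 - (L : ℝ) / G.card) ^ t := by
  classical
  have hc : (0 : ℝ) < G.card := by exact_mod_cast hG.card_pos
  have h0 : (0 : ℝ) ≤ 1 - (L : ℝ) / G.card := by
    rw [sub_nonneg, div_le_one hc]
    exact_mod_cast hL
  induction t with
  | zero =>
    refine ⟨∅, Finset.empty_subset _, by simp, ?_⟩
    simp
  | succ t ih =>
    obtain ⟨R, hRG, hRc, hR⟩ := ih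
    obtain ⟨x, hxG, hx⟩ := step G (F.filter fun i => Disjoint (S i) R) S L
      (fun i hi => hS i (Finset.mem_filter.1 hi).1) hG
    refine ⟨insert x R, Finset.insert_subset hxG hRG, (Finset.card_insert_le _ _).trans (by omega),
      ?_⟩
    have e : (F.filter fun i => Disjoint (S i) (insert x R)) =
        (F.filter fun i => Disjoint (S i) R) \
          ((F.filter fun i => Disjoint (S i) R).filter fun i => x ∈ S i) := by
      ext i
      simp only [Finset.mem_filter, Finset.mem_sdiff, Finset.disjoint_insert_right]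
      tauto
    have hsub : ((F.filter fun i => Disjoint (S i) R).filter fun i => x ∈ S i) ⊆
        (F.filter fun i => Disjoint (S i) R) := Finset.filter_subset _ _
    rw [e, Finset.cast_card_sdiff hsub, pow_succ]
    calc ((F.filter fun i => Disjoint (S i) R).card : ℝ) -
          (((F.filter fun i => Disjoint (S i) R).filter fun i => x ∈ S i).card : ℝ)
        ≤ ((F.filter fun i => Disjoint (S i) R).card : ℝ) * (1 - (L : ℝ) / G.card) := by
          linarith
      _ ≤ (F.card * (1 - (L : ℝ) / G.card) ^ t) * (1 - (L : ℝ) / G.card) :=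
          mul_le_mul_of_nonneg_right hR h0
      _ = F.card * ((1 - (L : ℝ) / G.card) ^ t * (1 - (L : ℝ) / G.card)) := by ring

/-- a hitting set of size at most `(|G| / L) log |F| + 1` -/
theorem hitting (G : Finset α) (F : Finset ι) (S : ι → Finset α) (L : ℕ)
    (hS : ∀ i ∈ F, S i ⊆ G ∧ L ≤ (S i).card) (hG : G.Nonempty) (hL0 : 0 < L) (hL : L ≤ G.card)
    (hF : F.Nonempty) :
    ∃ R ⊆ G, (R.card : ℝ) ≤ G.card / L * Real.log F.card + 1 ∧
      ∀ i ∈ F, ∃ x ∈ S i, x ∈ R := by
  classical
  have hc : (0 : ℝ) < G.card := by exact_mod_cast hG.card_pos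
  have hLr : (0 : ℝ) < L := by exact_mod_cast hL0
  have hFr : (0 : ℝ) < F.card := by exact_mod_cast hF.card_pos
  have hlog : 0 ≤ Real.log F.card := Real.log_nonneg (by exact_mod_cast hF.card_pos)
  set t : ℕ := ⌊(G.card : ℝ) / L * Real.log F.card⌋₊ + 1 with ht
  obtain ⟨R, hRG, hRc, hR⟩ := greedy G F S L hS hG hL t
  refine ⟨R, hRG, ?_, fun i hi => ?_⟩
  · calc (R.card : ℝ) ≤ t := by exact_mod_cast hRc
      _ = (⌊(G.card : ℝ) / L * Real.log F.card⌋₊ : ℝ) + 1 := by rw [ht]; push_cast; ring
      _ ≤ G.card / L * Real.log F.card + 1 := by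
          gcongr
          exact Nat.floor_le (by positivity)
  · by_contra hcon
    push Not at hcon
    have hmem : i ∈ F.filter fun i => Disjoint (S i) R :=
      Finset.mem_filter.2 ⟨hi, Finset.disjoint_left.2 fun x hx => hcon x hx⟩
    have h1 : (1 : ℝ) ≤ ((F.filter fun i => Disjoint (S i) R).card : ℝ) := by
      exact_mod_cast Finset.card_pos.2 ⟨i, hmem⟩
    have h2 : (F.card : ℝ) * (1 - (L : ℝ) / G.card) ^ t < 1 := by
      have h3 : (1 - (L : ℝ) / G.card) ≤ Real.exp (-((L : ℝ) / G.card)) := by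
        have := Real.add_one_le_exp (-((L : ℝ) / G.card))
        linarith
      have h0 : (0 : ℝ) ≤ 1 - (L : ℝ) / G.card := by
        rw [sub_nonneg, div_le_one hc]
        exact_mod_cast hL
      have h4 : (1 - (L : ℝ) / G.card) ^ t ≤ Real.exp (-((L : ℝ) / G.card)) ^ t :=
        pow_le_pow_left₀ h0 h3 t
      rw [← Real.exp_nat_mul] at h4
      have h5 : (G.card : ℝ) / L * Real.log F.card < t := by
        rw [ht]
        push_cast
        exact Nat.lt_floor_add_one _
      have h6 : Real.log F.card < t * ((L : ℝ) / G.card) := by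
        have := mul_lt_mul_of_pos_right h5 (show (0 : ℝ) < (L : ℝ) / G.card by positivity)
        calc Real.log F.card = (G.card : ℝ) / L * Real.log F.card * ((L : ℝ) / G.card) := by
              field_simp
          _ < t * ((L : ℝ) / G.card) := this
      calc (F.card : ℝ) * (1 - (L : ℝ) / G.card) ^ t
          ≤ F.card * Real.exp (t * -((L : ℝ) / G.card)) := by gcongr
        _ = Real.exp (Real.log F.card - t * ((L : ℝ) / G.card)) := by
            rw [sub_eq_add_neg, Real.exp_add, Real.exp_log hFr]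
            congr 2
            ring
        _ < 1 := by
            rw [Real.exp_lt_one_iff]
            linarith
    linarith

/-- A small set of residues modulo `N` which meets every progression of `L` terms whose step is a
unit. -/
theorem exists_hitting (N L : ℕ) (hN : 2 ≤ N) (hL0 : 0 < L) (hL : L ≤ N) :
    ∃ R : Finset (ZMod N), (R.card : ℝ) ≤ 2 * N / L * Real.log N + 1 ∧
      ∀ a e : ZMod N, IsUnit e → ∃ s < L, a + s * e ∈ R := by
  classical
  haveI : NeZero N := ⟨by omega⟩
  have hNr : (0 : ℝ) < N := by exact_mod_cast (by omega : 0 < N)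
  let F : Finset (ZMod N × ZMod N) := Finset.univ.filter fun p => IsUnit p.2
  let S : ZMod N × ZMod N → Finset (ZMod N) := fun p =>
    (Finset.range L).image fun s : ℕ => p.1 + s * p.2
  have hS : ∀ p ∈ F, S p ⊆ Finset.univ ∧ L ≤ (S p).card := by
    intro p hp
    refine ⟨Finset.subset_univ _, ?_⟩
    have hu : IsUnit p.2 := (Finset.mem_filter.1 hp).2
    rw [Finset.card_image_of_injOn, Finset.card_range]
    intro s hs s' hs' h
    simp only [Finset.coe_range, Set.mem_Iio] at hs hs'
    have h1 : (s : ZMod N) * p.2 = s' * p.2 := add_left_cancel h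
    have h2 : (s : ZMod N) = s' := hu.mul_right_cancel h1
    rw [ZMod.natCast_eq_natCast_iff'] at h2
    rwa [Nat.mod_eq_of_lt (by omega), Nat.mod_eq_of_lt (by omega)] at h2
  have hF : F.Nonempty := ⟨(0, 1), Finset.mem_filter.2 ⟨Finset.mem_univ _, isUnit_one⟩⟩
  have hcard : (Finset.univ : Finset (ZMod N)).card = N := by
    rw [Finset.card_univ, ZMod.card]
  obtain ⟨R, -, hRc, hR⟩ := hitting Finset.univ F S L hS ⟨0, Finset.mem_univ _⟩ hL0
    (by rw [hcard]; exact hL) hF
  refine ⟨R, ?_, fun a e he => ?_⟩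
  · have hFc : F.card ≤ N * N := by
      calc F.card ≤ (Finset.univ : Finset (ZMod N × ZMod N)).card := Finset.card_filter_le _ _
        _ = N * N := by rw [Finset.card_univ, Fintype.card_prod, ZMod.card]
    have hlog : Real.log F.card ≤ 2 * Real.log N := by
      have h1 : Real.log F.card ≤ Real.log ((N : ℝ) * N) := by
        apply Real.log_le_log (by exact_mod_cast hF.card_pos)
        exact_mod_cast hFc
      rw [Real.log_mul hNr.ne' hNr.ne'] at h1
      linarith
    rw [hcard] at hRc
    have : (N : ℝ) / L * Real.log F.card ≤ N / L * (2 * Real.log N) := by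
      gcongr
    calc (R.card : ℝ) ≤ N / L * Real.log F.card + 1 := hRc
      _ ≤ N / L * (2 * Real.log N) + 1 := by linarith
      _ = 2 * N / L * Real.log N + 1 := by ring
  · obtain ⟨x, hx, hxR⟩ := hR (a, e) (Finset.mem_filter.2 ⟨Finset.mem_univ _, he⟩)
    obtain ⟨s, hs, rfl⟩ := Finset.mem_image.1 hx
    exact ⟨s, Finset.mem_range.1 hs, hxR⟩

end Vale.Agent.P057.H915
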